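import Vale.Agent.P324.PTFinal

namespace Vale.Agent.Results.P324.PolyTime

open Turing Vale.Agent.P324

theorem result : ∃ M : TM2ComputableInPolyTime encInst encBool (answer 3),
    ∀ k, Finite (M.tm.Γ k) := QP.machine

end Vale.Agent.Results.P324.PolyTime
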