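import Vale.Agent.P324.QPFinal

namespace Vale.Agent.Results.P324.QuasiPoly

open Turing Vale.Agent.P324

theorem result (m : ℕ) (hm : 0 < m) :
    ∃ (c : ℕ) (M : TM2ComputableInTime encInst encBool (answer m)),
      (∀ L, M.time L ≤ 2 ^ (c * Nat.log 2 (L + 2) ^ 2)) ∧
      ∀ I : Inst, Nonempty (TM2OutputsInTime M.tm ((encInst I).map M.inputAlphabet.invFun)
        (some ((encBool (answer m I)).map M.outputAlphabet.invFun))
        (((encInst I).length + 2) ^ (c * (Nat.log 2 I.n + 1)))) := by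
  obtain ⟨p, c, h⟩ := QP.solve_run hm
  exact Vale.Agent.Lib.H24.T.exists_qp_tm QP.encInst_code QP.encBool_code Inst.n QP.n_le_sz
    (m + 2) (QP.cnt_le m) h

end Vale.Agent.Results.P324.QuasiPoly
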